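import Mathlib
import Vale.Agent.P129.RandomChoice

/-!
Spaces of density below the covering number of the null ideal have separable quotients.
-/

namespace Vale.Agent.Results.P129.BelowNullCovering

open Filter Set MeasureTheory

variable {𝕜 : Type*} [RCLike 𝕜]

theorem result {X I : Type*} [NormedAddCommGroup X] [NormedSpace 𝕜 X] [CompleteSpace X]
    (hX : ¬ FiniteDimensional 𝕜 X)
    (hI : (∀ Z : I → Set ℝ, (∀ i, volume (Z i) = 0) → ∃ t, ∀ i, t ∉ Z i) ∨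
      ∃ N : ℕ → ℕ, ∀ B : I → (k : ℕ) → Finset (Fin (N k)), (∀ i k, (B i k).card ≤ 4 ^ k) →
        ∃ w : (k : ℕ) → Fin (N k), ∀ i, ∀ᶠ k in atTop, w k ∉ B i k) :
    (∀ D : I → X, Dense (Submodule.span 𝕜 (range D) : Set X) →
      ∃ M : Submodule 𝕜 X, IsClosed (M : Set X) ∧
        TopologicalSpace.SeparableSpace (X ⧸ M) ∧ ¬ FiniteDimensional 𝕜 (X ⧸ M)) ∧
    ∀ S : I → Set X,
      (∀ i, ∃ (C : ℝ) (p : ℕ), ∀ (n : ℕ) (g : Fin n → StrongDual 𝕜 X),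
        (∀ x, ∑ j, ‖g j x‖ ^ 2 ≤ ‖x‖ ^ 2) → ∀ x : Fin n → X, (∀ j, x j ∈ S i) →
          ∑ j, ‖g j (x j)‖ ^ p ≤ C) →
      Dense (Submodule.span 𝕜 (⋃ i, S i) : Set X) →
      ∃ M : Submodule 𝕜 X, IsClosed (M : Set X) ∧
        TopologicalSpace.SeparableSpace (X ⧸ M) ∧ ¬ FiniteDimensional 𝕜 (X ⧸ M) := by
  obtain ⟨N, hN⟩ : ∃ N : ℕ → ℕ, ∀ B : I → (k : ℕ) → Finset (Fin (N k)),
      (∀ i k, (B i k).card ≤ 4 ^ k) →
        ∃ w : (k : ℕ) → Fin (N k), ∀ i, ∀ᶠ k in atTop, w k ∉ B i k := by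
    rcases hI with h | h
    · exact ⟨fun k => 8 ^ k, Vale.Agent.P129.slalom_of_null h⟩
    · exact h
  refine ⟨fun D hD => ?_, fun S hS hD =>
    Vale.Agent.P129.exists_quotient_of_slalom hX S hS hD N hN⟩
  refine Vale.Agent.P129.exists_quotient_of_slalom hX (fun i => {D i})
    (fun i => Vale.Agent.P129.singleton_summing (D i)) ?_ N hN
  rwa [iUnion_singleton_eq_range]

end Vale.Agent.Results.P129.BelowNullCovering
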