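import Mathlib
import Vale.Agent.P129.Fast

/-!
Separable infinite dimensional quotients from uniformly null sequences of functionals.
-/

namespace Vale.Agent.Results.P129.UniformNullQuotient

open Filter Set Topology

variable {𝕜 : Type*} [RCLike 𝕜]

theorem result {X I : Type*} [NormedAddCommGroup X] [NormedSpace 𝕜 X] [CompleteSpace X]
    (hI : ∀ F : I → ℕ → ℕ, ∃ g : ℕ → ℕ, ∀ i, ∀ᶠ k in atTop, F i k ≤ g k)
    (φ : ℕ → StrongDual 𝕜 X) (h1 : ∀ n, ‖φ n‖ = 1)
    (h0 : ∀ x, Tendsto (fun n => φ n x) atTop (𝓝 0))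
    (S : I → Set X) (hdense : Dense (Submodule.span 𝕜 (⋃ i, S i) : Set X))
    (hunif : ∀ i, TendstoUniformlyOn (fun n x => φ n x) (fun _ => 0) atTop (S i)) :
    ∃ M : Submodule 𝕜 X, IsClosed (M : Set X) ∧
      TopologicalSpace.SeparableSpace (X ⧸ M) ∧ ¬ FiniteDimensional 𝕜 (X ⧸ M) := by
  have hN : ∀ i k, ∃ N, ∀ n, N ≤ n → ∀ x ∈ S i, ‖φ n x‖ ≤ (1 / 2 : ℝ) ^ k := fun i k => by
    obtain ⟨N, hN⟩ := eventually_atTop.1
      (Metric.tendstoUniformlyOn_iff.1 (hunif i) ((1 / 2 : ℝ) ^ k) (by positivity))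
    exact ⟨N, fun n hn x hx => by simpa [dist_eq_norm] using (hN n hn x hx).le⟩
  choose F hF using hN
  obtain ⟨g, hg⟩ := hI F
  obtain ⟨n, hn⟩ : ∃ n : ℕ → ℕ, n = fun k => k + ∑ i ∈ Finset.range (k + 1), g i := ⟨_, rfl⟩
  have hmono : StrictMono n := strictMono_nat_of_lt_succ fun k => by
    simp only [hn, Finset.sum_range_succ _ (k + 1)]
    omega
  have hle : ∀ k, g k ≤ n k := fun k => by
    simp only [hn, Finset.sum_range_succ]
    omega
  refine Vale.Agent.P129.exists_quotient_of_summable (φ := fun k => φ (n k)) (fun k => h1 _)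
    (fun x => (h0 x).comp hmono.tendsto_atTop) (hdense.mono fun x hx => ?_)
  refine Submodule.span_induction (p := fun x _ => Summable fun k => ‖φ (n k) x‖) ?_ ?_ ?_ ?_ hx
  · intro x hx
    obtain ⟨i, hi⟩ := mem_iUnion.1 hx
    refine (summable_geometric_of_lt_one (r := (1 / 2 : ℝ)) (by norm_num)
      (by norm_num)).of_norm_bounded_eventually_nat ((hg i).mono fun k hk => ?_)
    rw [norm_norm]
    exact hF i k (n k) (hk.trans (hle k)) x hi
  · simpa using summable_zero
  · exact fun x y _ _ hx hy => (hx.add hy).of_nonneg_of_le (fun k => norm_nonneg _)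
      fun k => by rw [map_add]; exact norm_add_le _ _
  · exact fun c x _ hx => by simpa [norm_smul] using hx.mul_left ‖c‖

end Vale.Agent.Results.P129.UniformNullQuotient
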